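import Mathlib

/-!
Equations over groups: definitions and the compactness lemma.
-/

namespace HowieExt

/-- words: elements of the free product of `G` with the free group on `κ` -/
abbrev W (G κ : Type) [Group G] : Type := Monoid.Coprod G (FreeGroup κ)

/-- evaluation of words at elements `x` of an overgroup -/
def ev {G κ H : Type} [Group G] [Group H] (φ : G →* H) (x : κ → H) : W G κ →* H :=
  Monoid.Coprod.lift φ (FreeGroup.lift x)

/-- exponent sum of the unknown `j` in a word -/
def expSum {G : Type} [Group G] {n : ℕ} (w : W G (Fin n)) (j : Fin n) : ℤ :=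
  Multiplicative.toAdd (ev (1 : G →* Multiplicative ℤ)
    (fun i : Fin n => Multiplicative.ofAdd (if i = j then (1 : ℤ) else 0)) w)

/-- the rows of the exponent-sum matrix are linearly independent over `ℚ` -/
def Nonsing {G : Type} [Group G] {m n : ℕ} (w : Fin m → W G (Fin n)) : Prop :=
  LinearIndependent ℚ (fun (i : Fin m) (j : Fin n) => (expSum (w i) j : ℚ))

/-- the system has a solution in a group containing `G` -/
def SolvableOver {G : Type} [Group G] {m n : ℕ} (w : Fin m → W G (Fin n)) : Prop :=
  ∃ (H : Type) (_ : Group H) (φ : G →* H), Function.Injective φ ∧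
    ∃ x : Fin n → H, ∀ i, ev φ x (w i) = 1

/-- every finite nonsingular system over `G` is solvable over `G` -/
def Howie (G : Type) [Group G] : Prop :=
  ∀ (m n : ℕ) (w : Fin m → W G (Fin n)), Nonsing w → SolvableOver w

section basic

variable {G κ H : Type} [Group G] [Group H]

/-- the unknown `k` as a word -/
def X (k : κ) : W G κ := Monoid.Coprod.inr (FreeGroup.of k)

theorem ev_inl (φ : G →* H) (x : κ → H) (g : G) : ev φ x (Monoid.Coprod.inl g) = φ g := by
  unfold ev
  exact Monoid.Coprod.lift_apply_inl φ (FreeGroup.lift x) g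

theorem ev_X (φ : G →* H) (x : κ → H) (k : κ) : ev φ x (X k) = x k := by
  unfold ev X
  rw [Monoid.Coprod.lift_apply_inr, FreeGroup.lift_apply_of]

theorem W_ind {p : W G κ → Prop} (h1 : ∀ g : G, p (Monoid.Coprod.inl g))
    (h2 : ∀ k, p (X k)) (h3 : ∀ a b, p a → p b → p (a * b)) (h4 : ∀ a, p a → p a⁻¹) :
    ∀ w, p w := by
  intro w
  induction w using Monoid.Coprod.induction_on with
  | inl g => exact h1 g
  | inr f =>
    induction f using FreeGroup.induction_on with
    | C1 =>
      have := h1 1
      rwa [map_one] at this ⊢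
    | of k => exact h2 k
    | inv_of k hk =>
      rw [map_inv]
      exact h4 _ (h2 k)
    | mul a b ha hb =>
      rw [map_mul]
      exact h3 _ _ ha hb
  | mul a b ha hb => exact h3 a b ha hb

theorem ev_comp {K : Type} [Group K] (ψ : H →* K) (φ : G →* H) (x : κ → H) (w : W G κ) :
    ψ (ev φ x w) = ev (ψ.comp φ) (fun k => ψ (x k)) w := by
  revert w
  apply W_ind
  · intro g; rw [ev_inl, ev_inl]; rfl
  · intro k; rw [ev_X, ev_X]
  · intro a b ha hb; rw [map_mul, map_mul, map_mul, ha, hb]
  · intro a ha; rw [map_inv, map_inv, map_inv, ha]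

end basic

/-- finite character of normal closures -/
theorem nc_finite {U I : Type} [Group U] (h : I → U) (a : U)
    (ha : a ∈ Subgroup.normalClosure (Set.range h)) :
    ∃ F : Finset I, a ∈ Subgroup.normalClosure (h '' (F : Set I)) := by
  classical
  have mono : ∀ F F' : Finset I, F ⊆ F' →
      Subgroup.normalClosure (h '' (F : Set I)) ≤ Subgroup.normalClosure (h '' (F' : Set I)) := by
    intro F F' hF
    exact Subgroup.normalClosure_mono (Set.image_mono (by exact_mod_cast hF))
  let K : Subgroup U :=
    { carrier := {g | ∃ F : Finset I, g ∈ Subgroup.normalClosure (h '' (F : Set I))}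
      mul_mem' := by
        rintro x y ⟨F, hF⟩ ⟨F', hF'⟩
        exact ⟨F ∪ F', mul_mem (mono _ _ Finset.subset_union_left hF)
          (mono _ _ Finset.subset_union_right hF')⟩
      one_mem' := ⟨∅, one_mem _⟩
      inv_mem' := by
        rintro x ⟨F, hF⟩
        exact ⟨F, inv_mem hF⟩ }
  have hK : K.Normal := by
    constructor
    rintro x ⟨F, hF⟩ g
    exact ⟨F, (Subgroup.normalClosure_normal).conj_mem x hF g⟩
  have hle : Subgroup.normalClosure (Set.range h) ≤ K := by
    apply Subgroup.normalClosure_le_normal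
    rintro _ ⟨i, rfl⟩
    refine ⟨{i}, Subgroup.subset_normalClosure ?_⟩
    exact ⟨i, by simp, rfl⟩
  exact hle ha

/-- a word involves only finitely many unknowns -/
theorem W_supp {G κ : Type} [Group G] [DecidableEq κ] (w : W G κ) :
    ∃ K : Finset κ, ∀ K' : Finset κ, K ⊆ K' →
      ev (Monoid.Coprod.inl : G →* W G κ) (fun k => if k ∈ K' then X k else 1) w = w := by
  revert w
  apply W_ind
  · intro g
    exact ⟨∅, fun K' _ => ev_inl _ _ _⟩
  · intro k
    refine ⟨{k}, fun K' hK => ?_⟩
    rw [ev_X, if_pos (hK (Finset.mem_singleton_self k))]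
  · rintro a b ⟨K1, h1⟩ ⟨K2, h2⟩
    refine ⟨K1 ∪ K2, fun K' hK => ?_⟩
    rw [map_mul, h1 K' (Finset.subset_union_left.trans hK),
      h2 K' (Finset.subset_union_right.trans hK)]
  · rintro a ⟨K1, h1⟩
    refine ⟨K1, fun K' hK => ?_⟩
    rw [map_inv, h1 K' hK]

end HowieExt
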