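import Vale.Agent.P174H.A

/-!
Infinite systems over a group satisfying Howie's conjecture.
-/

namespace HowieExt

section expo
variable {G : Type} [Group G] {n : ℕ}

theorem expSum_inl (g : G) (j : Fin n) : expSum (Monoid.Coprod.inl g : W G (Fin n)) j = 0 := by
  unfold expSum
  rw [ev_inl]; rfl

theorem expSum_X (k j : Fin n) : expSum (X k : W G (Fin n)) j = if k = j then 1 else 0 := by
  unfold expSum
  rw [ev_X]; rfl

theorem expSum_mul (a b : W G (Fin n)) (j : Fin n) :
    expSum (a * b) j = expSum a j + expSum b j := by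
  unfold expSum
  rw [map_mul]; rfl

theorem expSum_inv (a : W G (Fin n)) (j : Fin n) : expSum a⁻¹ j = - expSum a j := by
  unfold expSum
  rw [map_inv]; rfl

theorem expSum_one (j : Fin n) : expSum (1 : W G (Fin n)) j = 0 := by
  unfold expSum
  rw [map_one]; rfl

end expo

theorem compact {N κ I M : Type} [Group N] [AddCommGroup M] [Module ℚ M]
    (hN : Howie N) (H : I → W N κ) (y : κ → M)
    (hli : LinearIndependent ℚ (fun i => Multiplicative.toAdd
      (ev (1 : N →* Multiplicative M) (fun k => Multiplicative.ofAdd (y k)) (H i))))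
    (a : N) (ha : (Monoid.Coprod.inl a : W N κ) ∈ Subgroup.normalClosure (Set.range H)) :
    a = 1 := by
  classical
  obtain ⟨F, hF⟩ := nc_finite H _ ha
  choose K hK using fun w : W N κ => W_supp w
  set K0 : Finset κ := F.biUnion (fun i => K (H i)) with hK0
  have hr : ∀ i ∈ F, ev (Monoid.Coprod.inl : N →* W N κ)
      (fun k => if k ∈ K0 then X k else 1) (H i) = H i :=
    fun i hi => hK (H i) K0 (Finset.subset_biUnion_of_mem (fun i => K (H i)) hi)
  let eK := K0.equivFin
  let eF := F.equivFin
  let q : W N κ →* W N (Fin K0.card) :=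
    ev Monoid.Coprod.inl (fun k => if h : k ∈ K0 then X (eK ⟨k, h⟩) else 1)
  let w : Fin F.card → W N (Fin K0.card) := fun i => q (H (eF.symm i))
  have hL : ∀ u : W N κ, Multiplicative.toAdd
      (ev (1 : N →* Multiplicative M) (fun k => Multiplicative.ofAdd (y k))
        (ev (Monoid.Coprod.inl : N →* W N κ) (fun k => if k ∈ K0 then X k else 1) u))
      = ∑ j : Fin K0.card, (expSum (q u) j : ℚ) • y (eK.symm j) := by
    apply W_ind
    · intro g
      have h1 : q (Monoid.Coprod.inl g) = Monoid.Coprod.inl g := ev_inl _ _ _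
      rw [ev_inl, ev_inl, h1]
      simp only [expSum_inl, Int.cast_zero, zero_smul, Finset.sum_const_zero]
      rfl
    · intro k
      have h1 : q (X k) = if h : k ∈ K0 then X (eK ⟨k, h⟩) else 1 := ev_X _ _ _
      rw [ev_X, h1]
      by_cases hk : k ∈ K0
      · rw [if_pos hk, dif_pos hk, ev_X]
        simp only [expSum_X]
        rw [Finset.sum_eq_single (eK ⟨k, hk⟩)]
        · simp
        · intro b _ hb
          rw [if_neg (Ne.symm hb)]; simp
        · intro h; exact absurd (Finset.mem_univ _) h
      · rw [if_neg hk, dif_neg hk, map_one]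
        simp only [expSum_one, Int.cast_zero, zero_smul, Finset.sum_const_zero]
        rfl
    · intro u v hu hv
      simp only [map_mul, expSum_mul, Int.cast_add, add_smul, Finset.sum_add_distrib,
        toAdd_mul]
      rw [hu, hv]
    · intro u hu
      simp only [map_inv, expSum_inv, Int.cast_neg, neg_smul, Finset.sum_neg_distrib,
        toAdd_inv]
      rw [hu]
  have hns : Nonsing w := by
    unfold Nonsing
    apply LinearIndependent.of_comp (Fintype.linearCombination ℚ (fun j => y (eK.symm j)))
    have h1 := hli.comp (fun i : Fin F.card => ((eF.symm i : F) : I))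
      (fun i j hij => eF.symm.injective (Subtype.ext hij))
    convert h1 using 1
    funext i
    simp only [Function.comp_apply, Fintype.linearCombination_apply]
    rw [← hL, hr _ (eF.symm i).2]
  obtain ⟨H', _, φ, hφ, x, hx⟩ := hN _ _ w hns
  let Ψ : W N κ →* H' := (ev φ x).comp q
  have hle : Subgroup.normalClosure (H '' (F : Set I)) ≤ Ψ.ker := by
    apply Subgroup.normalClosure_le_normal
    rintro _ ⟨i, hi, rfl⟩
    have h2 := hx (eF ⟨i, hi⟩)
    simp only [w, Equiv.symm_apply_apply] at h2
    exact h2
  have h3 : Ψ (Monoid.Coprod.inl a) = 1 := hle hF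
  have h4 : Ψ (Monoid.Coprod.inl a) = φ a := by
    show ev φ x (q (Monoid.Coprod.inl a)) = φ a
    have h1 : q (Monoid.Coprod.inl a) = Monoid.Coprod.inl a := ev_inl _ _ _
    rw [h1, ev_inl]
  apply hφ
  rw [← h4, h3, map_one]

end HowieExt
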