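import Vale.Agent.P174H.B

/-!
The wreath product over a vector space, and the embedding of an extension.
-/

namespace HowieExt

/-- elements of the unrestricted wreath product -/
@[ext] structure Wr (V L : Type) where
  /-- base part -/
  f : V → L
  /-- top part -/
  v : V

section wr
variable {V L : Type} [AddCommGroup V] [Group L]

instance : Mul (Wr V L) := ⟨fun a b => ⟨fun u => a.f u * b.f (u + a.v), a.v + b.v⟩⟩
instance : One (Wr V L) := ⟨⟨fun _ => 1, 0⟩⟩
instance : Inv (Wr V L) := ⟨fun a => ⟨fun u => (a.f (u - a.v))⁻¹, -a.v⟩⟩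

theorem Wr.mul_f (a b : Wr V L) (u : V) : (a * b).f u = a.f u * b.f (u + a.v) := rfl
theorem Wr.mul_v (a b : Wr V L) : (a * b).v = a.v + b.v := rfl
theorem Wr.one_f (u : V) : (1 : Wr V L).f u = 1 := rfl
theorem Wr.one_v : (1 : Wr V L).v = 0 := rfl
theorem Wr.inv_f (a : Wr V L) (u : V) : (a⁻¹).f u = (a.f (u - a.v))⁻¹ := rfl
theorem Wr.inv_v (a : Wr V L) : (a⁻¹).v = -a.v := rfl

instance : Group (Wr V L) := Group.ofLeftAxioms
  (by
    intro a b c
    ext u
    · simp only [Wr.mul_f, Wr.mul_v, mul_assoc, add_assoc]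
    · simp only [Wr.mul_v, add_assoc])
  (by
    intro a
    ext u
    · simp only [Wr.mul_f, Wr.one_f, Wr.one_v, one_mul, add_zero]
    · simp only [Wr.mul_v, Wr.one_v, zero_add])
  (by
    intro a
    ext u
    · simp only [Wr.mul_f, Wr.inv_f, Wr.inv_v, Wr.one_f]
      rw [← sub_eq_add_neg, inv_mul_cancel]
    · simp only [Wr.mul_v, Wr.inv_v, Wr.one_v, neg_add_cancel])

/-- functoriality in the base group -/
def Wr.map {L' : Type} [Group L'] (ψ : L →* L') : Wr V L →* Wr V L' where
  toFun a := ⟨fun u => ψ (a.f u), a.v⟩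
  map_one' := by
    ext u
    · exact map_one ψ
    · rfl
  map_mul' a b := by
    ext u
    · exact map_mul ψ _ _
    · rfl

theorem Wr.mul_f' (a b : Wr V L) (u : V) : (a * b).f u = a.f u * b.f (u + a.v) := rfl
end wr

section embed
variable {G V : Type} [Group G] [AddCommGroup V] (π : G →* Multiplicative V)

/-- coset representatives -/
theorem exists_sect : ∃ s : V → G, ∀ (u : V) (g : G),
    Multiplicative.toAdd (π (s (u + Multiplicative.toAdd (π g))))
      = Multiplicative.toAdd (π (s u)) + Multiplicative.toAdd (π g) := by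
  classical
  let R : AddSubgroup V := (Subgroup.toAddSubgroup' π.range)
  have hR : ∀ v : V, v ∈ R ↔ ∃ g, Multiplicative.toAdd (π g) = v := by
    intro v
    constructor
    · intro hv
      obtain ⟨g, hg⟩ : Multiplicative.ofAdd v ∈ π.range := hv
      exact ⟨g, by rw [hg]; rfl⟩
    · rintro ⟨g, rfl⟩
      show π g ∈ π.range
      exact ⟨g, rfl⟩
  have hrep : ∀ u : V, ∃ g : G, Multiplicative.toAdd (π g)
      = u - (Quotient.out (QuotientAddGroup.mk u : V ⧸ R) : V) := by
    intro u
    rw [← hR, sub_eq_add_neg, add_comm]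
    exact QuotientAddGroup.eq.1 (QuotientAddGroup.out_eq' (QuotientAddGroup.mk u : V ⧸ R))
  choose s hs using hrep
  refine ⟨s, fun u g => ?_⟩
  have h1 : (QuotientAddGroup.mk (u + Multiplicative.toAdd (π g)) : V ⧸ R)
      = QuotientAddGroup.mk u := by
    rw [eq_comm, QuotientAddGroup.eq, neg_add_cancel_left]
    exact (hR _).2 ⟨g, rfl⟩
  rw [hs, hs, h1]
  abel

end embed

end HowieExt
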