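import Vale.Agent.P174H.C

/-!
The embedding of an extension into a wreath product and its exponents.
-/

namespace HowieExt

section emb
variable {G V : Type} [Group G] [AddCommGroup V] (π : G →* Multiplicative V)
  (s : V → G) (hs : ∀ (u : V) (g : G),
    Multiplicative.toAdd (π (s (u + Multiplicative.toAdd (π g))))
      = Multiplicative.toAdd (π (s u)) + Multiplicative.toAdd (π g))
include hs

theorem emb_mem (g : G) (u : V) :
    s u * g * (s (u + Multiplicative.toAdd (π g)))⁻¹ ∈ π.ker := by
  rw [MonoidHom.mem_ker]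
  apply Multiplicative.toAdd.injective
  rw [MonoidHom.map_mul, MonoidHom.map_mul, MonoidHom.map_inv, toAdd_mul, toAdd_mul, toAdd_inv,
    hs, toAdd_one]
  abel

/-- the Kaloujnine-Krasner embedding -/
def emb : G →* Wr V π.ker where
  toFun g := ⟨fun u => ⟨s u * g * (s (u + Multiplicative.toAdd (π g)))⁻¹, emb_mem π s hs g u⟩,
    Multiplicative.toAdd (π g)⟩
  map_one' := by
    ext u
    · show s u * 1 * (s (u + Multiplicative.toAdd (π 1)))⁻¹ = 1
      rw [map_one, toAdd_one, add_zero, mul_one, mul_inv_cancel]
    · show Multiplicative.toAdd (π 1) = 0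
      rw [map_one, toAdd_one]
  map_mul' g g' := by
    ext u
    · show s u * (g * g') * (s (u + Multiplicative.toAdd (π (g * g'))))⁻¹
        = (s u * g * (s (u + Multiplicative.toAdd (π g)))⁻¹) *
          (s (u + Multiplicative.toAdd (π g)) * g' *
            (s (u + Multiplicative.toAdd (π g) + Multiplicative.toAdd (π g')))⁻¹)
      rw [map_mul, toAdd_mul, add_assoc]
      group
    · show Multiplicative.toAdd (π (g * g')) = _
      rw [map_mul, toAdd_mul]
      rfl

theorem emb_inj_aux (g : G) (hv : Multiplicative.toAdd (π g) = 0)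
    (hf : (emb π s hs g).f 0 = 1) : g = 1 := by
  have h1 : s 0 * g * (s (0 + Multiplicative.toAdd (π g)))⁻¹ = 1 := congrArg Subtype.val hf
  rw [hv, add_zero, mul_inv_eq_one, mul_eq_left] at h1
  exact h1

end emb

section theta
variable {G V : Type} [Group G] [AddCommGroup V] (π : G →* Multiplicative V)
  (s : V → G) (hs : ∀ (u : V) (g : G),
    Multiplicative.toAdd (π (s (u + Multiplicative.toAdd (π g))))
      = Multiplicative.toAdd (π (s u)) + Multiplicative.toAdd (π g))
  {n : ℕ} (f : Fin n → V)

/-- evaluation of words in the wreath product over the free product -/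
def Th : W G (Fin n) →* Wr V (W π.ker (Fin n × V)) :=
  ev ((Wr.map Monoid.Coprod.inl).comp (emb π s hs)) (fun j => ⟨fun u => X (j, u), f j⟩)

/-- exponent vectors with values in the group algebra -/
noncomputable def yv [Module ℚ V] : Fin n × V → (Fin n → AddMonoidAlgebra ℚ V) :=
  fun p => Pi.single p.1 (AddMonoidAlgebra.single p.2 1)

/-- total exponent homomorphism -/
noncomputable def Eh [Module ℚ V] {N : Type} [Group N] :
    W N (Fin n × V) →* Multiplicative (Fin n → AddMonoidAlgebra ℚ V) :=
  ev 1 (fun k => Multiplicative.ofAdd (yv (n := n) k))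

theorem Th_v (w : W G (Fin n)) : (Th π s hs f w).v
    = Multiplicative.toAdd (ev π (fun _ => 1) w) + ∑ j, expSum w j • f j := by
  revert w
  apply W_ind
  · intro g
    unfold Th
    rw [ev_inl, ev_inl]
    simp only [expSum_inl, zero_smul, Finset.sum_const_zero, add_zero]
    rfl
  · intro k
    unfold Th
    rw [ev_X, ev_X]
    simp only [expSum_X, ite_smul, one_smul, zero_smul, Finset.sum_ite_eq, Finset.mem_univ,
      if_true, toAdd_one, zero_add]
  · intro a b ha hb
    rw [map_mul, map_mul, Wr.mul_v, ha, hb, toAdd_mul]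
    simp only [expSum_mul, add_smul, Finset.sum_add_distrib]
    abel
  · intro a ha
    rw [map_inv, map_inv, Wr.inv_v, ha, toAdd_inv]
    simp only [expSum_inv, neg_smul, Finset.sum_neg_distrib]
    abel

variable [Module ℚ V]

theorem Eh_shift (w : W G (Fin n)) : ∀ u : V,
    Multiplicative.toAdd (Eh ((Th π s hs f w).f u))
      = (AddMonoidAlgebra.single u (1 : ℚ)) •
        Multiplicative.toAdd (Eh (n := n) ((Th π s hs f w).f 0)) := by
  revert w
  apply W_ind
  · intro g u
    have h1 : ∀ u, (Th π s hs f (Monoid.Coprod.inl g)).f u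
        = Monoid.Coprod.inl ((emb π s hs g).f u) := by
      intro u
      unfold Th
      rw [ev_inl]
      rfl
    rw [h1, h1]
    unfold Eh
    rw [ev_inl, ev_inl, MonoidHom.one_apply, MonoidHom.one_apply, toAdd_one, smul_zero]
  · intro k u
    have h1 : ∀ u, (Th π s hs f (X k)).f u = X (k, u) := by
      intro u
      unfold Th
      rw [ev_X]
    rw [h1, h1]
    unfold Eh
    rw [ev_X, ev_X]
    show yv (n := n) (k, u) = _ • yv (n := n) (k, (0 : V))
    unfold yv
    rw [← Pi.single_smul, smul_eq_mul, AddMonoidAlgebra.single_mul_single, add_zero, one_mul]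
  · intro a b ha hb u
    have h1 : ∀ u, (Th π s hs f (a * b)).f u
        = (Th π s hs f a).f u * (Th π s hs f b).f (u + (Th π s hs f a).v) := by
      intro u
      rw [map_mul, Wr.mul_f]
    rw [h1, h1, MonoidHom.map_mul, MonoidHom.map_mul, toAdd_mul, toAdd_mul, ha u, hb (u + _), hb (0 + _), smul_add,
      smul_smul, AddMonoidAlgebra.single_mul_single, zero_add, one_mul]
  · intro a ha u
    have h1 : ∀ u, (Th π s hs f a⁻¹).f u = ((Th π s hs f a).f (u - (Th π s hs f a).v))⁻¹ := by
      intro u
      rw [map_inv, Wr.inv_f]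
    rw [h1, h1, MonoidHom.map_inv, MonoidHom.map_inv, toAdd_inv, toAdd_inv, ha (u - _),
      ha (0 - _), smul_neg,
      smul_smul, AddMonoidAlgebra.single_mul_single, one_mul, zero_sub, sub_eq_add_neg]

/-- augmentation -/
noncomputable def aug : AddMonoidAlgebra ℚ V →ₐ[ℚ] ℚ :=
  AddMonoidAlgebra.lift ℚ ℚ V (1 : Multiplicative V →* ℚ)

theorem aug_single (u : V) (c : ℚ) : aug (AddMonoidAlgebra.single u c) = c := by
  unfold aug
  rw [AddMonoidAlgebra.lift_single]
  simp

theorem Eh_aug (w : W G (Fin n)) : ∀ (u : V) (j : Fin n),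
    aug (Multiplicative.toAdd (Eh (n := n) ((Th π s hs f w).f u)) j) = (expSum w j : ℚ) := by
  revert w
  apply W_ind
  · intro g u j
    have h1 : ∀ u, (Th π s hs f (Monoid.Coprod.inl g)).f u
        = Monoid.Coprod.inl ((emb π s hs g).f u) := by
      intro u
      unfold Th
      rw [ev_inl]
      rfl
    rw [h1, expSum_inl]
    unfold Eh
    rw [ev_inl, MonoidHom.one_apply, toAdd_one, Pi.zero_apply, map_zero, Int.cast_zero]
  · intro k u j
    have h1 : ∀ u, (Th π s hs f (X k)).f u = X (k, u) := by
      intro u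
      unfold Th
      rw [ev_X]
    rw [h1, expSum_X]
    unfold Eh
    rw [ev_X]
    show aug (yv (n := n) (k, u) j) = _
    unfold yv
    rw [Pi.single_apply]
    by_cases h : k = j
    · subst h
      simp [aug_single]
    · rw [if_neg (Ne.symm h), if_neg h, map_zero, Int.cast_zero]
  · intro a b ha hb u j
    rw [map_mul, Wr.mul_f, map_mul, toAdd_mul, Pi.add_apply, map_add, ha, hb, expSum_mul,
      Int.cast_add]
  · intro a ha u j
    rw [map_inv, Wr.inv_f, map_inv, toAdd_inv, Pi.neg_apply, map_neg, ha, expSum_inv,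
      Int.cast_neg]

end theta

end HowieExt
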