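import Vale.Agent.P174H.D

/-!
Linear independence of the shifted exponent rows, and the extension theorem.
-/

namespace HowieExt
open Matrix

theorem right_inverse {m n : ℕ} (A : Fin m → Fin n → ℚ) (hA : LinearIndependent ℚ A) :
    ∃ B : Matrix (Fin n) (Fin m) ℚ, (Matrix.of A) * B = 1 := by
  have hinj : Function.Injective (Fintype.linearCombination ℚ A) :=
    linearIndependent_iff_injective_fintypeLinearCombination.1 hA
  obtain ⟨g, hg⟩ := (Fintype.linearCombination ℚ A).exists_leftInverse_of_injective
    (LinearMap.ker_eq_bot.2 hinj)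
  refine ⟨Matrix.of (fun i k => g (fun j => if i = j then 1 else 0) k), ?_⟩
  ext k l
  have h1 : Fintype.linearCombination ℚ A (Pi.single k 1) = A k := by
    rw [Fintype.linearCombination_apply_single, one_smul]
  have h2 : g (A k) = Pi.single k 1 := by
    rw [← h1]
    exact LinearMap.congr_fun hg (Pi.single k 1)
  have h3 := LinearMap.pi_apply_eq_sum_univ g (A k)
  rw [h2] at h3
  have h4 := congrFun h3 l
  rw [Matrix.mul_apply, Matrix.one_apply]
  rw [Finset.sum_apply] at h4
  simp only [Pi.smul_apply, smul_eq_mul] at h4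
  simp only [Matrix.of_apply]
  rw [← h4, Pi.single_apply]
  by_cases h : k = l
  · rw [if_pos h, if_pos h.symm]
  · rw [if_neg h, if_neg (Ne.symm h)]

section li
variable {G V : Type} [Group G] [AddCommGroup V] [Module ℚ V] (π : G →* Multiplicative V)
  (s : V → G) (hs : ∀ (u : V) (g : G),
    Multiplicative.toAdd (π (s (u + Multiplicative.toAdd (π g))))
      = Multiplicative.toAdd (π (s u)) + Multiplicative.toAdd (π g))
  {n : ℕ} (f : Fin n → V)

theorem li_rows {m : ℕ} (w : Fin m → W G (Fin n)) (hw : Nonsing w) :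
    LinearIndependent ℚ (fun p : Fin m × V =>
      Multiplicative.toAdd (Eh (n := n) ((Th π s hs f (w p.1)).f p.2))) := by
  classical
  rw [linearIndependent_iff']
  intro s0 c hc p hp
  obtain ⟨B, hB⟩ := right_inverse _ hw
  let M : Matrix (Fin m) (Fin n) (AddMonoidAlgebra ℚ V) :=
    Matrix.of (fun i j => Multiplicative.toAdd (Eh (n := n) ((Th π s hs f (w i)).f 0)) j)
  let P : Fin m → AddMonoidAlgebra ℚ V := fun i =>
    ∑ q ∈ s0, if q.1 = i then AddMonoidAlgebra.single q.2 (c q) else 0
  have hPM : P ᵥ* M = 0 := by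
    funext j
    have h1 : (P ᵥ* M) j = ∑ i, P i * M i j := rfl
    rw [h1]
    have h2 : ∀ i, P i * M i j
        = ∑ q ∈ s0, if q.1 = i then AddMonoidAlgebra.single q.2 (c q) * M i j else 0 := by
      intro i
      simp only [P]
      rw [Finset.sum_mul]
      refine Finset.sum_congr rfl fun q _ => ?_
      split_ifs
      · rfl
      · rw [zero_mul]
    rw [Finset.sum_congr rfl fun i _ => h2 i, Finset.sum_comm]
    have h3 : ∀ q ∈ s0, (∑ i, if q.1 = i then AddMonoidAlgebra.single q.2 (c q) * M i j else 0)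
        = (c q • Multiplicative.toAdd (Eh (n := n) ((Th π s hs f (w q.1)).f q.2))) j := by
      intro q _
      rw [Finset.sum_ite_eq, if_pos (Finset.mem_univ _), Pi.smul_apply,
        Eh_shift π s hs f (w q.1) q.2, Pi.smul_apply, smul_eq_mul, ← smul_mul_assoc,
        AddMonoidAlgebra.smul_single, smul_eq_mul, mul_one]
      rfl
    rw [Finset.sum_congr rfl h3, ← Finset.sum_apply, hc]
  let MB : Matrix (Fin m) (Fin m) (AddMonoidAlgebra ℚ V) :=
    M * B.map (algebraMap ℚ (AddMonoidAlgebra ℚ V))
  have hPMB : P ᵥ* MB = 0 := by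
    rw [← Matrix.vecMul_vecMul, hPM, Matrix.zero_vecMul]
  have hmap : (aug (V := V)).mapMatrix MB = 1 := by
    rw [← hB]
    show (M * B.map (algebraMap ℚ (AddMonoidAlgebra ℚ V))).map (aug (V := V)) = _
    rw [Matrix.map_mul]
    congr 1
    · ext i j
      simp only [M, Matrix.map_apply, Matrix.of_apply]
      exact Eh_aug π s hs f (w i) 0 j
    · ext i j
      simp only [Matrix.map_apply, AlgHom.commutes]
      rfl
  have hdet : MB.det ≠ 0 := by
    intro h
    have h1 := AlgHom.map_det (aug (V := V)) MB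
    rw [h, map_zero, hmap, Matrix.det_one] at h1
    exact zero_ne_one h1
  have hP : P = 0 := Matrix.eq_zero_of_vecMul_eq_zero hdet hPMB
  have h5 : (P p.1).coeff p.2 = 0 := by
    rw [hP]; rfl
  simp only [P] at h5
  rw [AddMonoidAlgebra.coeff_sum, Finsupp.finsetSum_apply, Finset.sum_eq_single p] at h5
  · rw [if_pos rfl, AddMonoidAlgebra.coeff_single, Finsupp.single_eq_same] at h5
    exact h5
  · intro q _ hqp
    split_ifs with h
    · rw [AddMonoidAlgebra.coeff_single, Finsupp.single_eq_of_ne]
      intro h'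
      exact hqp (Prod.ext h h'.symm)
    · rfl
  · intro h; exact absurd hp h

end li

theorem howie_ext {G V : Type} [Group G] [AddCommGroup V] [Module ℚ V]
    (π : G →* Multiplicative V) (hN : Howie π.ker) : Howie G := by
  classical
  intro m n w hw
  obtain ⟨s, hs⟩ := exists_sect π
  obtain ⟨B, hB⟩ := right_inverse _ hw
  let f : Fin n → V := fun j => - ∑ i, B j i • Multiplicative.toAdd (ev π (fun _ => 1) (w i))
  have hv : ∀ i, (Th π s hs f (w i)).v = 0 := by
    intro i
    rw [Th_v]
    have h1 : ∑ j, expSum (w i) j • f j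
        = - ∑ k, ((Matrix.of (fun (i : Fin m) (j : Fin n) => (expSum (w i) j : ℚ))) * B) i k •
          Multiplicative.toAdd (ev π (fun _ => 1) (w k)) := by
      have h2 : ∀ j, expSum (w i) j • f j
          = - ∑ k, ((expSum (w i) j : ℚ) * B j k) •
            Multiplicative.toAdd (ev π (fun _ => 1) (w k)) := by
        intro j
        simp only [f]
        rw [smul_neg, Finset.smul_sum]
        congr 1
        refine Finset.sum_congr rfl fun k _ => ?_
        rw [mul_smul, Int.cast_smul_eq_zsmul]
      rw [Finset.sum_congr rfl fun j _ => h2 j, Finset.sum_neg_distrib, Finset.sum_comm]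
      congr 1
      refine Finset.sum_congr rfl fun k _ => ?_
      rw [Matrix.mul_apply, Finset.sum_smul]
      rfl
    rw [h1, hB]
    simp only [Matrix.one_apply, ite_smul, one_smul, zero_smul, Finset.sum_ite_eq,
      Finset.mem_univ, if_true, add_neg_cancel]
  let Hw : Fin m × V → W π.ker (Fin n × V) := fun p => (Th π s hs f (w p.1)).f p.2
  let R : Subgroup (W π.ker (Fin n × V)) := Subgroup.normalClosure (Set.range Hw)
  let qm : W π.ker (Fin n × V) →* (W π.ker (Fin n × V) ⧸ R) := QuotientGroup.mk' R
  have hcomp := compact (κ := Fin n × V) hN Hw (yv (n := n)) (li_rows π s hs f w hw)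
  refine ⟨Wr V (W π.ker (Fin n × V) ⧸ R), inferInstance,
    (Wr.map (qm.comp Monoid.Coprod.inl)).comp (emb π s hs), ?_,
    fun j => Wr.map qm ⟨fun u => X (j, u), f j⟩, ?_⟩
  · rw [injective_iff_map_eq_one]
    intro g hg
    have hgv : Multiplicative.toAdd (π g) = 0 := congrArg Wr.v hg
    have hgf : qm (Monoid.Coprod.inl ((emb π s hs g).f 0)) = 1 :=
      congrFun (congrArg Wr.f hg) 0
    have h1 : (Monoid.Coprod.inl ((emb π s hs g).f 0) : W π.ker (Fin n × V)) ∈ R :=
      (QuotientGroup.eq_one_iff _).1 hgf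
    exact emb_inj_aux π s hs g hgv (hcomp _ h1)
  · intro i
    have h1 : ev ((Wr.map (qm.comp Monoid.Coprod.inl)).comp (emb π s hs))
        (fun j => Wr.map qm (⟨fun u => X (j, u), f j⟩ : Wr V (W π.ker (Fin n × V)))) (w i)
        = Wr.map qm (Th π s hs f (w i)) := by
      unfold Th
      rw [ev_comp]
      rfl
    rw [h1]
    ext u
    · show qm (Hw (i, u)) = 1
      exact (QuotientGroup.eq_one_iff _).2 (Subgroup.subset_normalClosure ⟨(i, u), rfl⟩)
    · exact hv i

end HowieExt
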